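import Vale.Agent.P361.Limit

/-!
One half of Bloch's law, with the sharp constant, for every spin.
-/

open Filter Topology

namespace Vale.Agent.Results.P361.BlochLowerBound

open Vale.Agent.P361

theorem result (n : ℕ) (hn : 1 ≤ n) :
    (spin1 n * spin2 n - spin2 n * spin1 n = Complex.I • spin3 n ∧
      spin1 n * spin1 n + spin2 n * spin2 n + spin3 n * spin3 n =
        ((n : ℂ) / 2 * ((n : ℂ) / 2 + 1)) • 1) ∧
    (∀ β : ℝ, 0 < β →
      HasDerivWithinAt (pressure n β) (magnetization n β) (Set.Ioi 0) 0 ∧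
      (0 < magnetization n β → ∀ J : ℕ,
        magnetization n β / ((n : ℝ) / 2) * ∑ j ∈ Finset.range J,
          (∫ x in (0:ℝ)..1, Real.exp (-(2 * ((j : ℝ) + 1) * β * ((n : ℝ) / 2) ^ 2 /
            magnetization n β * (1 - Real.cos (2 * Real.pi * x))))) ^ 3 ≤
        (n : ℝ) / 2 - magnetization n β)) ∧
    (∀ c : ℝ, c < (riemannZeta (3 / 2 : ℂ)).re /
        (8 * Real.pi ^ ((3 : ℝ) / 2) * ((n : ℝ) / 2) ^ ((3 : ℝ) / 2)) →
      ∀ᶠ β in atTop, c ≤ β ^ ((3 : ℝ) / 2) * ((n : ℝ) / 2 - magnetization n β)) := by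
  refine ⟨⟨?_, ?_⟩, fun β hβ => ⟨magnetization_hasDeriv β hβ,
    fun hm J => infinite_volume_bound hn β hβ hm J⟩, asymptotic_bound hn⟩
  · have h := spinPlus_spinMinus_comm (n := n)
    rw [sub_eq_iff_eq_add] at h
    simp only [spin1, spin2, smul_mul_smul, Matrix.add_mul, Matrix.mul_add, Matrix.sub_mul,
      Matrix.mul_sub]
    rw [h]
    match_scalars <;> ring
  · have h := spinPlus_spinMinus_comm (n := n)
    rw [sub_eq_iff_eq_add] at h
    have hI : (-Complex.I / 2) * (-Complex.I / 2) = -(1/4 : ℂ) := by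
      linear_combination (1/4 : ℂ) * Complex.I_sq
    simp only [spin1, spin2, smul_mul_smul, Matrix.add_mul, Matrix.mul_add, Matrix.sub_mul,
      Matrix.mul_sub, hI]
    rw [h]
    have h2 : spinMinus n * spinPlus n + spin3 n + spin3 n * spin3 n =
        ((n : ℂ) / 2 * ((n : ℂ) / 2 + 1)) • 1 := by
      rw [spinMinus_mul_spinPlus, spin3, Matrix.diagonal_mul_diagonal, Matrix.diagonal_add,
        Matrix.diagonal_add, Matrix.smul_one_eq_diagonal]
      congr 1
      funext i
      simp [spinVal]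
      ring
    rw [← h2]
    match_scalars <;> ring

end Vale.Agent.Results.P361.BlochLowerBound
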